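import Mathlib

/-! The Fischer product on `MvPolynomial σ ℂ`: multiplication by `X i` is adjoint to `pderiv i`;
translation invariant polynomials are orthogonal to the ideal of the power sums `p_v`. -/

namespace Vale.Agent.P181.H583

open MvPolynomial
open scoped ComplexConjugate

variable {σ : Type*}

/-- `Π m_i !` -/
noncomputable def wt (m : σ →₀ ℕ) : ℂ := m.prod fun _ k => ((k.factorial : ℕ) : ℂ)

/-- the Fischer product, conjugate linear in the first variable. -/
noncomputable def fis (P Q : MvPolynomial σ ℂ) : ℂ :=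
  ∑ m ∈ P.support, wt m * conj (coeff m P) * coeff m Q

theorem fis_eq_sum (P Q : MvPolynomial σ ℂ) (s : Finset (σ →₀ ℕ)) (h : P.support ⊆ s) :
    fis P Q = ∑ m ∈ s, wt m * conj (coeff m P) * coeff m Q := by
  rw [fis]
  refine Finset.sum_subset h fun m _ hm => ?_
  rw [notMem_support_iff.1 hm, map_zero, mul_zero, zero_mul]

theorem fis_add_left (P P' Q : MvPolynomial σ ℂ) : fis (P + P') Q = fis P Q + fis P' Q := by
  classical
  rw [fis_eq_sum (P + P') Q (P.support ∪ P'.support) support_add,
    fis_eq_sum P Q (P.support ∪ P'.support) Finset.subset_union_left,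
    fis_eq_sum P' Q (P.support ∪ P'.support) Finset.subset_union_right,
    ← Finset.sum_add_distrib]
  refine Finset.sum_congr rfl fun m _ => ?_
  rw [coeff_add, map_add]
  ring

theorem fis_add_right (P Q Q' : MvPolynomial σ ℂ) : fis P (Q + Q') = fis P Q + fis P Q' := by
  rw [fis, fis, fis, ← Finset.sum_add_distrib]
  refine Finset.sum_congr rfl fun m _ => ?_
  rw [coeff_add]
  ring

theorem fis_smul_right (c : ℂ) (P Q : MvPolynomial σ ℂ) : fis P (c • Q) = c * fis P Q := by
  rw [fis, fis, Finset.mul_sum]
  refine Finset.sum_congr rfl fun m _ => ?_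
  rw [coeff_smul, smul_eq_mul]
  ring

theorem fis_zero_right (P : MvPolynomial σ ℂ) : fis P 0 = 0 := by
  rw [fis]
  refine Finset.sum_eq_zero fun m _ => ?_
  rw [coeff_zero, mul_zero]

theorem fis_zero_left (Q : MvPolynomial σ ℂ) : fis 0 Q = 0 := by
  rw [fis, support_zero, Finset.sum_empty]

theorem conj_wt (m : σ →₀ ℕ) : conj (wt m) = wt m := by
  rw [wt, Finsupp.prod, map_prod]
  refine Finset.prod_congr rfl fun i _ => ?_
  exact Complex.conj_natCast _

theorem fis_conj (P Q : MvPolynomial σ ℂ) : conj (fis P Q) = fis Q P := by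
  classical
  rw [fis_eq_sum P Q (P.support ∪ Q.support) Finset.subset_union_left,
    fis_eq_sum Q P (P.support ∪ Q.support) Finset.subset_union_right, map_sum]
  refine Finset.sum_congr rfl fun m _ => ?_
  rw [map_mul, map_mul, conj_wt, Complex.conj_conj]
  ring

theorem fis_smul_left (c : ℂ) (P Q : MvPolynomial σ ℂ) : fis (c • P) Q = conj c * fis P Q := by
  rw [← fis_conj, fis_smul_right, map_mul, fis_conj]

theorem fis_neg_right (P Q : MvPolynomial σ ℂ) : fis P (-Q) = -fis P Q := by
  have h := fis_smul_right (-1) P Q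
  rw [neg_one_smul, neg_one_mul] at h
  exact h

theorem fis_neg_left (P Q : MvPolynomial σ ℂ) : fis (-P) Q = -fis P Q := by
  rw [← fis_conj, fis_neg_right, map_neg, fis_conj]

theorem fis_sub_right (P Q Q' : MvPolynomial σ ℂ) : fis P (Q - Q') = fis P Q - fis P Q' := by
  rw [sub_eq_add_neg, fis_add_right, fis_neg_right, sub_eq_add_neg]

theorem fis_sub_left (P P' Q : MvPolynomial σ ℂ) : fis (P - P') Q = fis P Q - fis P' Q := by
  rw [sub_eq_add_neg, fis_add_left, fis_neg_left, sub_eq_add_neg]

theorem fis_sum_right {ι : Type*} (s : Finset ι) (P : MvPolynomial σ ℂ)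
    (Q : ι → MvPolynomial σ ℂ) : fis P (∑ i ∈ s, Q i) = ∑ i ∈ s, fis P (Q i) := by
  classical
  induction s using Finset.induction_on with
  | empty => rw [Finset.sum_empty, Finset.sum_empty, fis_zero_right]
  | insert a s ha ih => rw [Finset.sum_insert ha, Finset.sum_insert ha, fis_add_right, ih]

theorem fis_sum_left {ι : Type*} (s : Finset ι) (P : ι → MvPolynomial σ ℂ)
    (Q : MvPolynomial σ ℂ) : fis (∑ i ∈ s, P i) Q = ∑ i ∈ s, fis (P i) Q := by
  classical
  induction s using Finset.induction_on with
  | empty => rw [Finset.sum_empty, Finset.sum_empty, fis_zero_left]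
  | insert a s ha ih => rw [Finset.sum_insert ha, Finset.sum_insert ha, fis_add_left, ih]

open Classical in
theorem fis_monomial (m n : σ →₀ ℕ) (a b : ℂ) :
    fis (monomial m a) (monomial n b) = if m = n then wt m * conj a * b else 0 := by
  rw [fis_eq_sum (monomial m a) (monomial n b) {m} support_monomial_subset,
    Finset.sum_singleton, coeff_monomial, coeff_monomial, if_pos rfl]
  by_cases h : m = n
  · rw [if_pos h, if_pos h.symm]
  · rw [if_neg h, if_neg (fun e => h e.symm), mul_zero]

theorem wt_add_single (m : σ →₀ ℕ) (i : σ) :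
    wt (m + Finsupp.single i 1) = wt m * ((m i + 1 : ℕ) : ℂ) := by
  classical
  have hs : ∀ n : σ →₀ ℕ, ∀ s : Finset σ, n.support ⊆ s →
      wt n = ∏ j ∈ s, (((n j).factorial : ℕ) : ℂ) := by
    intro n s h
    rw [wt, Finsupp.prod]
    refine Finset.prod_subset h fun j _ hj => ?_
    rw [Finsupp.notMem_support_iff.1 hj]
    simp
  have h1 : (m + Finsupp.single i 1).support ⊆ insert i m.support := by
    intro j hj
    rw [Finset.mem_insert]
    by_contra hc
    rw [not_or] at hc
    rw [Finsupp.mem_support_iff, Finsupp.add_apply, Finsupp.notMem_support_iff.1 hc.2,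
      Finsupp.single_apply, if_neg (fun e => hc.1 e.symm)] at hj
    exact hj rfl
  rw [hs _ (insert i m.support) h1, hs m (insert i m.support) (Finset.subset_insert _ _),
    ← Finset.mul_prod_erase _ _ (Finset.mem_insert_self i _),
    ← Finset.mul_prod_erase _ _ (Finset.mem_insert_self i _)]
  have h2 : ∀ j ∈ (insert i m.support).erase i,
      ((((m + Finsupp.single i 1 : σ →₀ ℕ) j).factorial : ℕ) : ℂ) = (((m j).factorial : ℕ) : ℂ) := by
    intro j hj
    have : j ≠ i := (Finset.mem_erase.1 hj).1
    rw [Finsupp.add_apply, Finsupp.single_apply, if_neg (fun e => this e.symm), add_zero]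
  rw [Finset.prod_congr rfl h2, Finsupp.add_apply, Finsupp.single_eq_same, Nat.factorial_succ]
  push_cast
  ring

/-- **`X i` is adjoint to `∂_i`.** -/
theorem fis_X (i : σ) (P Q : MvPolynomial σ ℂ) : fis (X i * P) Q = fis P (pderiv i Q) := by
  classical
  induction P using MvPolynomial.induction_on' with
  | add P P' h h' => rw [mul_add, fis_add_left, fis_add_left, h, h']
  | monomial m a =>
    induction Q using MvPolynomial.induction_on' with
    | add Q Q' h h' => rw [map_add, fis_add_right, fis_add_right, h, h']
    | monomial n b =>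
      have e1 : (X i : MvPolynomial σ ℂ) * monomial m a = monomial (m + Finsupp.single i 1) a := by
        rw [X, monomial_mul, one_mul, add_comm]
      rw [e1, pderiv_monomial, fis_monomial, fis_monomial]
      by_cases hn : n i = 0
      · rw [if_neg]
        · split_ifs
          · rw [hn, Nat.cast_zero, mul_zero, mul_zero]
          · rfl
        · intro e
          have := congrArg (fun f => f i) e
          simp only [Finsupp.add_apply, Finsupp.single_eq_same] at this
          omega
      · by_cases h : m + Finsupp.single i 1 = n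
        · have h' : m = n - Finsupp.single i 1 := by
            rw [← h, add_tsub_cancel_right]
          rw [if_pos h, if_pos h', wt_add_single]
          have e2 : n i = m i + 1 := by
            rw [← h, Finsupp.add_apply, Finsupp.single_eq_same]
          rw [e2]
          ring
        · have h' : ¬ m = n - Finsupp.single i 1 := by
            intro e
            apply h
            rw [e]
            ext j
            rw [Finsupp.add_apply, Finsupp.tsub_apply]
            by_cases hj : i = j
            · subst hj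
              rw [Finsupp.single_eq_same]
              omega
            · rw [Finsupp.single_apply, if_neg hj]
              omega
          rw [if_neg h, if_neg h']

theorem fis_pderiv (i : σ) (P Q : MvPolynomial σ ℂ) : fis (pderiv i P) Q = fis P (X i * Q) := by
  rw [← fis_conj, ← fis_X, fis_conj]

/-- the Fischer product with itself. -/
theorem fis_self_eq (P : MvPolynomial σ ℂ) :
    fis P P = ((∑ m ∈ P.support, (m.prod fun _ k => ((k.factorial : ℕ) : ℝ))
      * Complex.normSq (coeff m P) : ℝ) : ℂ) := by
  rw [fis]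
  push_cast
  refine Finset.sum_congr rfl fun m _ => ?_
  have h1 : wt m = (((m.prod fun _ k => ((k.factorial : ℕ) : ℝ)) : ℝ) : ℂ) := by
    rw [wt, Finsupp.prod, Finsupp.prod]
    push_cast
    rfl
  rw [h1, mul_assoc, Complex.normSq_eq_conj_mul_self]

/-- definite. -/
theorem fis_self (P : MvPolynomial σ ℂ) (h : fis P P = 0) : P = 0 := by
  rw [fis_self_eq] at h
  have h' : (∑ m ∈ P.support, (m.prod fun _ k => ((k.factorial : ℕ) : ℝ))
      * Complex.normSq (coeff m P) : ℝ) = 0 := by exact_mod_cast h
  have hpos : ∀ m : σ →₀ ℕ, 0 < (m.prod fun _ k => ((k.factorial : ℕ) : ℝ)) := by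
    intro m
    rw [Finsupp.prod]
    exact Finset.prod_pos fun j _ => by exact_mod_cast Nat.factorial_pos _
  rw [Finset.sum_eq_zero_iff_of_nonneg
    (fun m _ => mul_nonneg (hpos m).le (Complex.normSq_nonneg _))] at h'
  by_contra hP
  obtain ⟨m, hm⟩ := (support_nonempty.2 hP)
  have h2 := h' m hm
  rcases mul_eq_zero.1 h2 with h3 | h3
  · exact (hpos m).ne' h3
  · exact mem_support_iff.1 hm (Complex.normSq_eq_zero.1 h3)

/-- disjoint supports are orthogonal. -/
theorem fis_disjoint (P Q : MvPolynomial σ ℂ) (h : ∀ m, coeff m P ≠ 0 → coeff m Q = 0) :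
    fis P Q = 0 := by
  rw [fis]
  refine Finset.sum_eq_zero fun m hm => ?_
  rw [h m (mem_support_iff.1 hm), mul_zero]

/-- adjoint of multiplication by a sum of variables. -/
theorem fis_sum_X {ι : Type*} (s : Finset ι) (x : ι → σ) (P Q : MvPolynomial σ ℂ) :
    fis P ((∑ j ∈ s, X (x j)) * Q) = fis (∑ j ∈ s, pderiv (x j) P) Q := by
  rw [Finset.sum_mul, fis_sum_right, fis_sum_left]
  exact Finset.sum_congr rfl fun j _ => (fis_pderiv (x j) P Q).symm

/-- **a translation invariant polynomial is orthogonal to the ideal `(p_v)`**, `p_v = Σ_j X (x v j)`;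
`s v` the columns of row `v` (in the application `x v j = (v, j)`). -/
theorem fis_ideal {ι κ : Type*} (s : Finset ι) (x : κ → ι → σ) (P : MvPolynomial σ ℂ)
    (hP : ∀ v, ∑ j ∈ s, pderiv (x v j) P = 0) (Q : MvPolynomial σ ℂ)
    (hQ : Q ∈ Ideal.span (Set.range fun v => ∑ j ∈ s, (X (x v j) : MvPolynomial σ ℂ))) :
    fis P Q = 0 := by
  refine Submodule.span_induction (p := fun Q _ => fis P Q = 0) ?_ ?_ ?_ ?_ hQ
  · rintro _ ⟨v, rfl⟩
    have h := fis_sum_X s (x v) P 1
    rw [mul_one, hP v, fis_zero_left] at h
    exact h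
  · exact fis_zero_right P
  · intro a b _ _ ha hb
    rw [fis_add_right, ha, hb, add_zero]
  · intro a b hb hab
    -- the ideal condition is stable under multiplication: reprove for the product
    have key : ∀ c : MvPolynomial σ ℂ,
        b ∈ Ideal.span (Set.range fun v => ∑ j ∈ s, (X (x v j) : MvPolynomial σ ℂ)) →
        fis P (c * b) = 0 := by
      intro c hb'
      refine Submodule.span_induction
        (p := fun b _ => ∀ c : MvPolynomial σ ℂ, fis P (c * b) = 0) ?_ ?_ ?_ ?_ hb' c
      · rintro _ ⟨v, rfl⟩ c
        have h := fis_sum_X s (x v) P c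
        rw [hP v, fis_zero_left] at h
        rw [mul_comm]
        exact h
      · intro c
        rw [mul_zero, fis_zero_right]
      · intro p q _ _ hp hq c
        rw [mul_add, fis_add_right, hp, hq, add_zero]
      · intro r p _ hp c
        rw [smul_eq_mul, ← mul_assoc]
        exact hp (c * r)
    exact key a hb

/-- translation invariant and in the ideal `(p_v)`: zero. -/
theorem eq_zero_of_mem_ideal {ι κ : Type*} (s : Finset ι) (x : κ → ι → σ)
    (P : MvPolynomial σ ℂ) (hP : ∀ v, ∑ j ∈ s, pderiv (x v j) P = 0)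
    (hQ : P ∈ Ideal.span (Set.range fun v => ∑ j ∈ s, (X (x v j) : MvPolynomial σ ℂ))) :
    P = 0 :=
  fis_self P (fis_ideal s x P hP P hQ)

end Vale.Agent.P181.H583
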